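import Vale.Agent.P154.R4.SumE
import Vale.Agent.P154.R4.Mult
import Vale.Agent.P154.R4.Master2

/-! # P154 q = 4: assembling the subadditivity inequality from its computed ingredients -/

namespace Vale.Agent.P154

open Finset

/-- `1 / Z ≥ (4 - 4 z + 4 z^2 - 4 z^3 + 3 z^4 - z^5) / 4`, `z = Z - 1` -/
theorem m5_bound (Z : ℝ) (hZ : 0 < Z) : ev1 (Z - 1) [4, -4, 4, -4, 3, -1] ≤ 4 / Z := by
  sorry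

theorem keyX_asm (D : ℕ) (Ld Xs0 Xs1 Xs2 Xs3 Xs4 Xs5 Xt0 Xt1 Xt2 Xt3 Xt4 Xt5 : TL) (R1 : List ℤ)
    (K KA KB C1 : ℝ) (hK : 0 < K) (hKK : KA * KB = 24 * K) (hC1 : C1 = K * (8 / 3) / 4)
    (hR1 : ∀ Z : ℝ, 0 < Z → ev1 (Z - 1) R1 ≤ 4 / Z)
    (hm : ∀ a b : Fin 4 → ℝ, ∑ i, a i = 0 → (∀ i, -1 ≤ a i) → ∑ i, b i = 0 → (∀ i, -(3 / 5) ≤ b i) →
      0 ≤ ∑ σ : Equiv.Perm (Fin 4),
        sm D Ld (120 * uQ a (fun i => b (σ i)) 0) (120 * uQ a (fun i => b (σ i)) 1)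
          (120 * uQ a (fun i => b (σ i)) 2) (120 * uQ a (fun i => b (σ i)) 3) 48
      + dotRR ([Xs0, Xs1, Xs2, Xs3, Xs4, Xs5].map
            (fun l => sm D l (1 + a 0) (1 + a 1) (1 + a 2) (1 + a 3) 4))
          ([Xt0, Xt1, Xt2, Xt3, Xt4, Xt5].map
            (fun l => sm D l (30 * (1 + b 0)) (30 * (1 + b 1)) (30 * (1 + b 2)) (30 * (1 + b 3)) 12)))
    (hid : ∀ u0 u1 u2 u3 : ℝ, sm D Ld (120 * u0) (120 * u1) (120 * u2) (120 * u3) 48 =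
      C1 * ((u0 * u1 + u0 * u2 + u0 * u3 + u1 * u2 + u1 * u3 + u2 * u3) * ev1 (u0 + u1 + u2 + u3 - 1) R1))
    (hs0 : ∀ a : Fin 4 → ℝ, sm D Xs0 (1 + a 0) (1 + a 1) (1 + a 2) (1 + a 3) 4 = KA * (alQ a - 1))
    (hs1 : ∀ a : Fin 4 → ℝ, sm D Xs1 (1 + a 0) (1 + a 1) (1 + a 2) (1 + a 3) 4 = KA * 1)
    (hs2 : ∀ a : Fin 4 → ℝ, sm D Xs2 (1 + a 0) (1 + a 1) (1 + a 2) (1 + a 3) 4 = KA * (-psK (7 / 4) a))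
    (hs3 : ∀ a : Fin 4 → ℝ, sm D Xs3 (1 + a 0) (1 + a 1) (1 + a 2) (1 + a 3) 4 = KA * (-pMQ a))
    (hs4 : ∀ a : Fin 4 → ℝ, sm D Xs4 (1 + a 0) (1 + a 1) (1 + a 2) (1 + a 3) 4 =
      KA * (-(1 / 20) * (alQ a) ^ 2))
    (hs5 : ∀ a : Fin 4 → ℝ, sm D Xs5 (1 + a 0) (1 + a 1) (1 + a 2) (1 + a 3) 4 =
      KA * (-(1 / 20) * alQ a))
    (ht0 : ∀ b : Fin 4 → ℝ,
      sm D Xt0 (30 * (1 + b 0)) (30 * (1 + b 1)) (30 * (1 + b 2)) (30 * (1 + b 3)) 12 = KB * 1)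
    (ht1 : ∀ b : Fin 4 → ℝ,
      sm D Xt1 (30 * (1 + b 0)) (30 * (1 + b 1)) (30 * (1 + b 2)) (30 * (1 + b 3)) 12 = KB * alQ b)
    (ht2 : ∀ b : Fin 4 → ℝ,
      sm D Xt2 (30 * (1 + b 0)) (30 * (1 + b 1)) (30 * (1 + b 2)) (30 * (1 + b 3)) 12 = KB * pMQ b)
    (ht3 : ∀ b : Fin 4 → ℝ,
      sm D Xt3 (30 * (1 + b 0)) (30 * (1 + b 1)) (30 * (1 + b 2)) (30 * (1 + b 3)) 12 =
        KB * psK (35 / 12) b)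
    (ht4 : ∀ b : Fin 4 → ℝ,
      sm D Xt4 (30 * (1 + b 0)) (30 * (1 + b 1)) (30 * (1 + b 2)) (30 * (1 + b 3)) 12 = KB * alQ b)
    (ht5 : ∀ b : Fin 4 → ℝ,
      sm D Xt5 (30 * (1 + b 0)) (30 * (1 + b 1)) (30 * (1 + b 2)) (30 * (1 + b 3)) 12 =
        KB * (alQ b) ^ 2)
    (a b : Fin 4 → ℝ) (ha0 : ∑ i, a i = 0) (ha : ∀ i, -1 ≤ a i) (hb0 : ∑ i, b i = 0)
    (hb : ∀ i, -(3 / 5) ≤ b i) :
    avQ (KQ alQ a) b ≤ alQ a + alQ b - pMQ b * psK (7 / 4) a - pMQ a * psK (5 * (7 / 4) / 3) b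
        - 1 / 20 * (alQ a ^ 2 * alQ b + alQ a * alQ b ^ 2) := by
  sorry

end Vale.Agent.P154
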